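import Vale.Agent.P042.Cubes

/-!
P042, lower bound for cubes: sets without differences `c * y ^ 3` of size `N ^ 0.8621`.
-/

theorem Vale.Agent.Results.P042.CubeLowerBound.result :
    ((25 : ℝ) / 29 < 2 / 3 + Real.log 117 / (3 * Real.log 3367) ∧
      2 / 3 + Real.log 14 / (3 * Real.log 91) < (25 : ℝ) / 29) ∧
    ∀ c : ℕ, 0 < c → ∃ C : ℝ, 0 < C ∧ ∀ N : ℕ, 1 ≤ N →
      ∃ A ⊆ Finset.Icc 1 N, C * (N : ℝ) ^ (2 / 3 + Real.log 117 / (3 * Real.log 3367)) ≤ A.card ∧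
        ∀ a ∈ A, ∀ b ∈ A, a ≠ b → ∀ y : ℤ, (a : ℤ) - b ≠ c * y ^ 3 :=
  Vale.Agent.P042.cube_difference_free
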