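import Vale.Agent.P042.Cyl.Cert

/-!
P042, squares: the exponent `(1 + log 12 / log 205) / 2 = 0.733411…` is not optimal.
-/

namespace Vale.Agent.Results.P042.SquareLowerBound

open Vale.Agent.P042.Cyl

lemma exponent_lt : (1 + Real.log 12 / Real.log 205) / 2 < (47 / 64 : ℝ) := by
  have h205 : (0 : ℝ) < Real.log 205 := Real.log_pos (by norm_num)
  have h : Real.log 12 / Real.log 205 < 15 / 32 := by
    rw [div_lt_iff₀ h205]
    have h1 : Real.log ((12 : ℝ) ^ 32) < Real.log ((205 : ℝ) ^ 15) :=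
      Real.log_lt_log (by positivity) (by norm_num)
    rw [Real.log_pow, Real.log_pow] at h1
    push_cast at h1
    linarith
  linarith

lemma kraft : (1 : ℝ) < (41 : ℝ) ^ (1 - 2 * (47 / 64 : ℝ)) +
    10 * (205 : ℝ) ^ (1 - 2 * (47 / 64 : ℝ)) := by
  have key : ∀ b a : ℝ, 0 < b → 0 < a → b ^ 15 < a ^ 32 →
      1 / a < b ^ (1 - 2 * (47 / 64 : ℝ)) := by
    intro b a hb ha hlt
    have e : (1 - 2 * (47 / 64 : ℝ)) = -(15 / 32 : ℝ) := by norm_num
    rw [e, Real.rpow_neg hb.le, one_div]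
    gcongr
    have h : (b ^ (15 / 32 : ℝ)) ^ 32 < a ^ 32 := by
      rw [← Real.rpow_natCast (b ^ (15 / 32 : ℝ)) 32, ← Real.rpow_mul hb.le]
      norm_num
      rw [← Real.rpow_natCast b 15] at hlt
      exact_mod_cast hlt
    exact lt_of_pow_lt_pow_left₀ 32 ha.le h
  have h1 := key 41 5.7025 (by norm_num) (by norm_num) (by norm_num)
  have h2 := key 205 12.126 (by norm_num) (by norm_num) (by norm_num)
  norm_num at h1 h2 ⊢
  linarith

/-- There is an exponent `θ`, the root of `41^(1-2θ) + 10·205^(1-2θ) = 1`, exceeding both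
`47/64` and the record `(1 + log 12 / log 205)/2`, such that for every `N ≥ 1` some
`A ⊆ [N]` of size `≫ N^θ` has no difference equal to `n^2`, `n ≥ 1`. -/
theorem result :
    ∃ θ : ℝ, (1 + Real.log 12 / Real.log 205) / 2 < 47 / 64 ∧ (47 / 64 : ℝ) < θ ∧
      (41 : ℝ) ^ (1 - 2 * θ) + 10 * (205 : ℝ) ^ (1 - 2 * θ) = 1 ∧
      ∃ C : ℝ, 0 < C ∧ ∀ N : ℕ, 1 ≤ N → ∃ A : Finset ℕ, A ⊆ Finset.Icc 1 N ∧
        C * (N : ℝ) ^ θ ≤ A.card ∧
        ∀ a ∈ A, ∀ b ∈ A, ∀ n : ℕ, 1 ≤ n → (a : ℤ) - b ≠ (n : ℤ) ^ 2 := by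
  obtain ⟨θ, ⟨hlo, hhi⟩, hθ⟩ : ∃ θ ∈ Set.Icc (47 / 64 : ℝ) 1,
      (41 : ℝ) ^ (1 - 2 * θ) + 10 * (205 : ℝ) ^ (1 - 2 * θ) = 1 := by
    refine intermediate_value_Icc' (by norm_num) ?_ ⟨?_, kraft.le⟩
    · apply Continuous.continuousOn
      apply Continuous.add
      · exact Continuous.rpow continuous_const (by fun_prop) (fun _ => Or.inl (by norm_num))
      · exact continuous_const.mul
          (Continuous.rpow continuous_const (by fun_prop) (fun _ => Or.inl (by norm_num)))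
    · norm_num [Real.rpow_neg_one]
  have hne : (47 / 64 : ℝ) ≠ θ := fun h => by
    subst h; exact absurd hθ (ne_of_gt kraft)
  refine ⟨θ, exponent_lt, lt_of_le_of_ne hlo hne, hθ, ?_⟩
  obtain ⟨C, hC, h⟩ := exists_noSq (by linarith) hhi hθ.ge
  refine ⟨C, hC, fun N hN => ?_⟩
  obtain ⟨A, hA, hA', hA''⟩ := h N hN
  refine ⟨A.image (· + 1), ?_, ?_, ?_⟩
  · intro x hx
    obtain ⟨a, ha, rfl⟩ := Finset.mem_image.1 hx
    have := Finset.mem_range.1 (hA ha)
    simp only [Finset.mem_Icc]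
    omega
  · rwa [Finset.card_image_of_injective _ (fun x y h => Nat.succ_injective h)]
  · intro a ha b hb n hn heq
    obtain ⟨a, ha', rfl⟩ := Finset.mem_image.1 ha
    obtain ⟨b, hb', rfl⟩ := Finset.mem_image.1 hb
    have : n = 0 := hA' a ha' b hb' n (by push_cast at heq; zify; linarith)
    omega

end Vale.Agent.Results.P042.SquareLowerBound
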